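import Mathlib.MeasureTheory.Integral.Bochner.Basic
import Mathlib.MeasureTheory.Integral.DominatedConvergence
import Mathlib.Topology.UniformSpace.HeineCantor
import Mathlib.Topology.Algebra.Order.LiminfLimsup

/-! Weak convergence from the call functions (g - s)_+. -/

open MeasureTheory Filter Topology Set

namespace Vale.Agent.P156.H761

noncomputable section

/-- the call function -/
def call (s g : ℝ) : ℝ := max (g - s) 0

lemma call_nonneg (s g : ℝ) : 0 ≤ call s g := le_max_right _ _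

lemma call_zero {g : ℝ} (hg : 0 ≤ g) : call 0 g = g := by simp [call, hg]

/-- A positive linear functional on functions, only seeing [0,∞). -/
structure PosFun (Λ : (ℝ → ℝ) → ℝ) : Prop where
  add : ∀ F G : ℝ → ℝ, Λ (fun x => F x + G x) = Λ F + Λ G
  smul : ∀ (c : ℝ) (F : ℝ → ℝ), Λ (fun x => c * F x) = c * Λ F
  mono : ∀ F G : ℝ → ℝ, (∀ x, 0 ≤ x → F x ≤ G x) → Λ F ≤ Λ G

lemma PosFun.congr {Λ : (ℝ → ℝ) → ℝ} (h : PosFun Λ) {F G : ℝ → ℝ} (hFG : ∀ x, 0 ≤ x → F x = G x) :
    Λ F = Λ G :=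
  le_antisymm (h.mono _ _ fun x hx => (hFG x hx).le) (h.mono _ _ fun x hx => (hFG x hx).ge)

lemma PosFun.sum {Λ : (ℝ → ℝ) → ℝ} (h : PosFun Λ) {κ : Type*} (s : Finset κ) (F : κ → ℝ → ℝ) :
    Λ (fun x => ∑ k ∈ s, F k x) = ∑ k ∈ s, Λ (F k) := by
  classical
  induction s using Finset.induction_on with
  | empty =>
    have := h.smul 0 (fun _ => 0)
    simpa using this
  | insert a s ha ih =>
    rw [Finset.sum_insert ha, ← ih, ← h.add]
    congr 1
    funext x
    rw [Finset.sum_insert ha]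

lemma PosFun.sub {Λ : (ℝ → ℝ) → ℝ} (h : PosFun Λ) (F G : ℝ → ℝ) :
    Λ (fun x => F x - G x) = Λ F - Λ G := by
  have : (fun x => F x - G x) = fun x => F x + (-1) * G x := by funext x; ring
  rw [this, h.add, h.smul]; ring

lemma PosFun.abs_sub_le {Λ : (ℝ → ℝ) → ℝ} (h : PosFun Λ) {F G K : ℝ → ℝ}
    (hK : ∀ x, 0 ≤ x → |F x - G x| ≤ K x) : |Λ F - Λ G| ≤ Λ K := by
  rw [← h.sub, abs_le]
  constructor
  · have h1 := h.mono (fun x => (-1) * K x) (fun x => F x - G x)
      (fun x hx => by have := (abs_le.1 (hK x hx)).1; linarith)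
    rw [h.smul] at h1; linarith
  · exact h.mono _ _ fun x hx => (abs_le.1 (hK x hx)).2

/-- The functional given by a probability measure on [0,∞); the integrals are set to what is
needed for nonintegrable functions, so we only use it on integrable ones. -/
def hat (δ : ℝ) (j : ℕ) (g : ℝ) : ℝ :=
  if j = 0 then 1 - δ⁻¹ * call 0 g + δ⁻¹ * call δ g
  else δ⁻¹ * call ((j - 1) * δ) g - 2 * δ⁻¹ * call (j * δ) g + δ⁻¹ * call ((j + 1) * δ) g

lemma hat_nonneg {δ : ℝ} (hδ : 0 < δ) (j : ℕ) {g : ℝ} (hg : 0 ≤ g) : 0 ≤ hat δ j g := by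
  have h1 : 0 < δ⁻¹ := inv_pos.2 hδ
  unfold hat call
  split_ifs with hj
  · rcases le_total g δ with h | h
    · rw [max_eq_left (by linarith), max_eq_right (by linarith)]
      have : δ⁻¹ * g ≤ δ⁻¹ * δ := mul_le_mul_of_nonneg_left h h1.le
      rw [inv_mul_cancel₀ hδ.ne'] at this
      linarith
    · rw [max_eq_left (by linarith), max_eq_left (by linarith)]
      have : δ⁻¹ * δ = 1 := inv_mul_cancel₀ hδ.ne'
      nlinarith
  · have e1 : max (g - (j - 1) * δ) 0 - 2 * max (g - j * δ) 0 + max (g - (j + 1) * δ) 0 ≥ 0 := by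
      rcases le_total g (j * δ) with h | h
      · rw [max_eq_right (by linarith : g - j * δ ≤ 0)]
        have := le_max_right (g - ((j : ℝ) - 1) * δ) 0
        have := le_max_right (g - ((j : ℝ) + 1) * δ) 0
        linarith
      · rw [max_eq_left (by linarith : 0 ≤ g - j * δ)]
        have := le_max_left (g - ((j : ℝ) - 1) * δ) 0
        have := le_max_left (g - ((j : ℝ) + 1) * δ) 0
        linarith
    have := mul_nonneg h1.le e1.le
    linarith

lemma hat_eq_zero {δ : ℝ} (hδ : 0 < δ) (j : ℕ) {g : ℝ} (hg : 0 ≤ g) (h : δ ≤ |g - j * δ|) :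
    hat δ j g = 0 := by
  unfold hat call
  split_ifs with hj
  · subst hj
    simp only [Nat.cast_zero, zero_mul, sub_zero, abs_of_nonneg hg] at h
    rw [max_eq_left (by linarith), max_eq_left (by linarith)]
    have : δ⁻¹ * δ = 1 := inv_mul_cancel₀ hδ.ne'
    linear_combination (-1 : ℝ) * this
  · rcases le_total g (j * δ) with h' | h'
    · rw [abs_of_nonpos (by linarith)] at h
      rw [max_eq_right (by linarith : g - j * δ ≤ 0), max_eq_right (by linarith : g - (j - 1) * δ ≤ 0),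
        max_eq_right (by linarith : g - (j + 1) * δ ≤ 0)]
      ring
    · rw [abs_of_nonneg (by linarith)] at h
      rw [max_eq_left (by linarith : 0 ≤ g - j * δ), max_eq_left (by linarith : 0 ≤ g - (j - 1) * δ),
        max_eq_left (by linarith : 0 ≤ g - (j + 1) * δ)]
      ring

lemma sum_hat {δ : ℝ} (N : ℕ) {g : ℝ} :
    ∑ j ∈ Finset.range (N + 1), hat δ j g = 1 - δ⁻¹ * (call (N * δ) g - call ((N + 1) * δ) g) := by
  induction N with
  | zero =>
    simp [hat]
    ring
  | succ N ih =>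
    rw [Finset.sum_range_succ, ih]
    simp only [hat, Nat.succ_ne_zero, if_false, Nat.cast_succ]
    rw [show ((N : ℝ) + 1 - 1) * δ = N * δ by ring]
    ring

lemma sum_hat_eq_one {δ : ℝ} (hδ : 0 < δ) (N : ℕ) {g : ℝ} (hg : 0 ≤ g) (hN : g ≤ N * δ) :
    ∑ j ∈ Finset.range (N + 1), hat δ j g = 1 := by
  rw [sum_hat N]
  unfold call
  rw [max_eq_right (by linarith), max_eq_right (by linarith)]
  ring

lemma sum_hat_le_one {δ : ℝ} (hδ : 0 < δ) (N : ℕ) {g : ℝ} (hg : 0 ≤ g) :
    ∑ j ∈ Finset.range (N + 1), hat δ j g ≤ 1 := by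
  rw [sum_hat N]
  have : call ((N + 1) * δ) g ≤ call (N * δ) g := by
    unfold call
    exact max_le_max (by linarith) le_rfl
  have h1 : 0 < δ⁻¹ := inv_pos.2 hδ
  nlinarith

/-- interpolation -/
def interp (δ : ℝ) (N : ℕ) (F : ℝ → ℝ) (g : ℝ) : ℝ :=
  ∑ j ∈ Finset.range (N + 1), F (j * δ) * hat δ j g

lemma interp_err {F : ℝ → ℝ} {C δ ε S : ℝ} (hδ : 0 < δ) (hC : ∀ x, |F x| ≤ C) (N : ℕ)
    (hN : S + 1 ≤ N * δ) (hS : 0 ≤ S)
    (hu : ∀ x y, 0 ≤ x → x ≤ S + 1 → 0 ≤ y → |x - y| < δ → |F x - F y| ≤ ε)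
    {g : ℝ} (hg : 0 ≤ g) :
    |F g - interp δ N F g| ≤ ε * 1 + 2 * C * call S g := by
  have hε : 0 ≤ ε := le_trans (abs_nonneg _) (hu 0 0 le_rfl (by linarith) le_rfl (by simpa using hδ))
  have hC0 : 0 ≤ C := le_trans (abs_nonneg _) (hC 0)
  rcases le_total g (S + 1) with h | h
  · have e : F g - interp δ N F g = ∑ j ∈ Finset.range (N + 1), (F g - F (j * δ)) * hat δ j g := by
      unfold interp
      simp only [sub_mul, Finset.sum_sub_distrib, ← Finset.mul_sum]
      rw [sum_hat_eq_one hδ N hg (by linarith), mul_one]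
    rw [e]
    refine le_trans (Finset.abs_sum_le_sum_abs _ _) ?_
    have : ∀ j ∈ Finset.range (N + 1), |(F g - F (j * δ)) * hat δ j g| ≤ ε * hat δ j g := by
      intro j _
      rw [abs_mul, abs_of_nonneg (hat_nonneg hδ j hg)]
      rcases lt_or_ge |g - j * δ| δ with h1 | h1
      · exact mul_le_mul_of_nonneg_right (hu g (j * δ) hg h (by positivity) h1) (hat_nonneg hδ j hg)
      · rw [hat_eq_zero hδ j hg h1]; simp
    refine le_trans (Finset.sum_le_sum this) ?_
    rw [← Finset.mul_sum]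
    have h2 := mul_le_mul_of_nonneg_left (sum_hat_le_one hδ N hg) hε
    have h3 := mul_nonneg (mul_nonneg (by norm_num : (0:ℝ) ≤ 2) hC0) (call_nonneg S g)
    linarith
  · have h1 : |interp δ N F g| ≤ C := by
      unfold interp
      refine le_trans (Finset.abs_sum_le_sum_abs _ _) ?_
      have : ∀ j ∈ Finset.range (N + 1), |F (j * δ) * hat δ j g| ≤ C * hat δ j g := by
        intro j _
        rw [abs_mul, abs_of_nonneg (hat_nonneg hδ j hg)]
        exact mul_le_mul_of_nonneg_right (hC _) (hat_nonneg hδ j hg)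
      refine le_trans (Finset.sum_le_sum this) ?_
      rw [← Finset.mul_sum]
      have h2 := mul_le_mul_of_nonneg_left (sum_hat_le_one hδ N hg) hC0
      linarith
    have h2 : 1 ≤ call S g := le_trans (by linarith : 1 ≤ g - S) (le_max_left _ _)
    have h3 := hC g
    have h4 : |F g - interp δ N F g| ≤ |F g| + |interp δ N F g| := abs_sub _ _
    nlinarith

lemma int3 {p : Measure ℝ} {u v w : ℝ → ℝ} (hu : Integrable u p) (hv : Integrable v p)
    (hw : Integrable w p) (a b c : ℝ) :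
    ∫ g, (a * u g + b * v g + c * w g) ∂p = a * ∫ g, u g ∂p + b * ∫ g, v g ∂p + c * ∫ g, w g ∂p := by
  have h1 : Integrable (fun g => a * u g) p := hu.const_mul a
  have h2 : Integrable (fun g => b * v g) p := hv.const_mul b
  have h3 : Integrable (fun g => c * w g) p := hw.const_mul c
  have h4 : Integrable (fun g => a * u g + b * v g) p := h1.add h2
  rw [integral_add h4 h3, integral_add h1 h2, integral_const_mul, integral_const_mul,
    integral_const_mul]

/-- Lemma W: convergence of the mass and of all call prices implies convergence of all bounded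
continuous functions, if the limiting call price vanishes at infinity. -/
theorem tendsto_of_call {κ : Type*} {l : Filter κ} {Λ : κ → (ℝ → ℝ) → ℝ} (hΛ : ∀ k, PosFun (Λ k))
    {p : Measure ℝ} [IsProbabilityMeasure p] (hp0 : p (Iio 0) = 0) (hint : Integrable (fun g => g) p)
    {c : ℝ} (h1 : Tendsto (fun k => Λ k (fun _ => 1)) l (𝓝 c))
    (hs : ∀ s : ℝ, 0 ≤ s → Tendsto (fun k => Λ k (call s)) l (𝓝 (c * ∫ g, call s g ∂p)))
    {F : ℝ → ℝ} (hF : Continuous F) (hFb : ∃ C, ∀ x, |F x| ≤ C) :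
    Tendsto (fun k => Λ k F) l (𝓝 (c * ∫ g, F g ∂p)) := by
  rcases l.eq_or_neBot with rfl | hlne
  · exact tendsto_bot
  obtain ⟨C, hC⟩ := hFb
  have hC0 : 0 ≤ C := le_trans (abs_nonneg _) (hC 0)
  have hae : ∀ᵐ g ∂p, 0 ≤ g := by
    rw [ae_iff]
    have : {a : ℝ | ¬ 0 ≤ a} = Iio 0 := by ext a; simp
    rw [this]; exact hp0
  have hcallint : ∀ s : ℝ, Integrable (call s) p := fun s => by
    unfold call
    exact (hint.sub (integrable_const s)).sup (integrable_const 0)
  have hFint : Integrable F p :=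
    Integrable.of_bound hF.aestronglyMeasurable C (Eventually.of_forall fun x => by simpa using hC x)
  -- the call price of p vanishes at infinity
  have hcall0 : Tendsto (fun k : ℕ => ∫ g, call (k : ℝ) g ∂p) atTop (𝓝 0) := by
    have : (0 : ℝ) = ∫ g, (0 : ℝ) ∂p := by simp
    rw [this]
    refine tendsto_integral_of_dominated_convergence (fun g => |g|) (fun k => (hcallint k).1)
      hint.abs (fun k => Eventually.of_forall fun g => ?_) (Eventually.of_forall fun g => ?_)
    · rw [Real.norm_eq_abs, abs_of_nonneg (call_nonneg _ _)]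
      unfold call
      refine max_le ?_ (abs_nonneg _)
      have := le_abs_self g
      have : (0:ℝ) ≤ k := Nat.cast_nonneg k
      linarith
    · refine tendsto_const_nhds.congr' ?_
      filter_upwards [eventually_ge_atTop (⌈g⌉₊)] with k hk
      have : g ≤ k := le_trans (Nat.le_ceil g) (by exact_mod_cast hk)
      unfold call
      rw [max_eq_right (by linarith)]
  have hhat : ∀ (δ : ℝ), 0 < δ → ∀ j : ℕ, Tendsto (fun k => Λ k (hat δ j)) l (𝓝 (c * ∫ g, hat δ j g ∂p)) := by
    intro δ hδ j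
    by_cases hj : j = 0
    · have e : hat δ j = fun g => (1 + (-δ⁻¹) * call 0 g) + δ⁻¹ * call δ g := by
        funext g; simp [hat, hj]; ring
      have e2 : ∀ k, Λ k (hat δ j) = (Λ k (fun _ => 1) + (-δ⁻¹) * Λ k (call 0)) + δ⁻¹ * Λ k (call δ) := by
        intro k
        rw [e, (hΛ k).add (fun g => 1 + (-δ⁻¹) * call 0 g) (fun g => δ⁻¹ * call δ g),
          (hΛ k).add (fun _ => 1) (fun g => (-δ⁻¹) * call 0 g), (hΛ k).smul, (hΛ k).smul]
      have e3 : c * ∫ g, hat δ j g ∂p = (c + (-δ⁻¹) * (c * ∫ g, call 0 g ∂p)) + δ⁻¹ * (c * ∫ g, call δ g ∂p) := by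
        have h := int3 (p := p) (integrable_const (1:ℝ)) (hcallint 0) (hcallint δ) 1 (-δ⁻¹) δ⁻¹
        have e' : ∫ g, hat δ j g ∂p = ∫ g, (1 * (1:ℝ) + (-δ⁻¹) * call 0 g + δ⁻¹ * call δ g) ∂p := by
          rw [e]; simp
        rw [e', h]
        simp
        ring
      rw [e3]
      simp_rw [e2]
      exact (h1.add ((hs 0 le_rfl).const_mul _)).add ((hs δ hδ.le).const_mul _)
    · have hj1 : (1 : ℝ) ≤ j := by exact_mod_cast Nat.one_le_iff_ne_zero.2 hj
      have e : hat δ j = fun g => (δ⁻¹ * call ((j - 1) * δ) g + (-(2 * δ⁻¹)) * call (j * δ) g)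
          + δ⁻¹ * call ((j + 1) * δ) g := by
        funext g; simp [hat, hj]; ring
      have e2 : ∀ k, Λ k (hat δ j) = (δ⁻¹ * Λ k (call ((j - 1) * δ)) + (-(2 * δ⁻¹)) * Λ k (call (j * δ)))
          + δ⁻¹ * Λ k (call ((j + 1) * δ)) := by
        intro k
        rw [e, (hΛ k).add (fun g => δ⁻¹ * call ((j - 1) * δ) g + (-(2 * δ⁻¹)) * call (j * δ) g)
            (fun g => δ⁻¹ * call ((j + 1) * δ) g),
          (hΛ k).add (fun g => δ⁻¹ * call ((j - 1) * δ) g) (fun g => (-(2 * δ⁻¹)) * call (j * δ) g),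
          (hΛ k).smul, (hΛ k).smul, (hΛ k).smul]
      have e3 : c * ∫ g, hat δ j g ∂p = (δ⁻¹ * (c * ∫ g, call ((j - 1) * δ) g ∂p)
          + (-(2 * δ⁻¹)) * (c * ∫ g, call (j * δ) g ∂p))
          + δ⁻¹ * (c * ∫ g, call ((j + 1) * δ) g ∂p) := by
        rw [e, int3 (hcallint _) (hcallint _) (hcallint _)]
        ring
      rw [e3]
      simp_rw [e2]
      exact (((hs _ (mul_nonneg (by linarith) hδ.le)).const_mul _).add
        ((hs _ (mul_nonneg (by linarith) hδ.le)).const_mul _)).add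
        ((hs _ (mul_nonneg (by linarith) hδ.le)).const_mul _)
  have hc0 : 0 ≤ c := by
    refine ge_of_tendsto' h1 fun k => ?_
    have := (hΛ k).mono (fun _ => 0 * 1) (fun _ => 1) (fun _ _ => by norm_num)
    rw [(hΛ k).smul] at this
    linarith
  rw [Metric.tendsto_nhds]
  intro ε hε
  -- choose S
  set e1 : ℝ := ε / (4 * (c + 1) * (2 * C + 1)) with he1
  have he1p : 0 < e1 := by positivity
  obtain ⟨K, hK⟩ := (Metric.tendsto_nhds.1 hcall0 e1 he1p).exists
  rw [Real.dist_eq, sub_zero] at hK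
  have hK' : ∫ g, call (K : ℝ) g ∂p < e1 := lt_of_le_of_lt (le_abs_self _) hK
  obtain ⟨S, hSdef⟩ : ∃ S : ℝ, S = K := ⟨_, rfl⟩
  have hS : 0 ≤ S := hSdef ▸ Nat.cast_nonneg K
  rw [← hSdef] at hK'
  -- uniform continuity on [0, S+2]
  set e2 : ℝ := ε / (8 * (c + 1)) with he2
  have he2p : 0 < e2 := by positivity
  have huc : UniformContinuousOn F (Icc 0 (S + 2)) :=
    isCompact_Icc.uniformContinuousOn_of_continuous hF.continuousOn
  rw [Metric.uniformContinuousOn_iff] at huc
  obtain ⟨δ0, hδ0, hu0⟩ := huc e2 he2p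
  set δ : ℝ := min δ0 1 with hδdef
  have hδ : 0 < δ := lt_min hδ0 one_pos
  have hu : ∀ x y, 0 ≤ x → x ≤ S + 1 → 0 ≤ y → |x - y| < δ → |F x - F y| ≤ e2 := by
    intro x y hx hx1 hy hxy
    have h3 : |x - y| < 1 := lt_of_lt_of_le hxy (min_le_right _ _)
    have h4 := abs_lt.1 h3
    exact (hu0 x ⟨hx, by linarith⟩ y ⟨hy, by linarith⟩
      (lt_of_lt_of_le (by rwa [Real.dist_eq]) (min_le_left _ _))).le
  obtain ⟨N, hN⟩ := exists_nat_ge ((S + 1) / δ)
  have hN' : S + 1 ≤ N * δ := by rwa [div_le_iff₀ hδ] at hN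
  have hI : Tendsto (fun k => Λ k (interp δ N F)) l (𝓝 (c * ∫ g, interp δ N F g ∂p)) := by
    have e4 : ∀ k, Λ k (interp δ N F) = ∑ j ∈ Finset.range (N + 1), F (j * δ) * Λ k (hat δ j) := by
      intro k
      have := (hΛ k).sum (Finset.range (N + 1)) (fun j g => F (j * δ) * hat δ j g)
      unfold interp
      rw [this]
      exact Finset.sum_congr rfl fun j _ => (hΛ k).smul _ _
    have hhi : ∀ j, Integrable (hat δ j) p := by
      intro j
      unfold hat
      split_ifs
      · exact ((integrable_const 1).sub ((hcallint _).const_mul _)).add ((hcallint _).const_mul _)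
      · exact (((hcallint _).const_mul _).sub ((hcallint _).const_mul _)).add
          ((hcallint _).const_mul _)
    have e5 : c * ∫ g, interp δ N F g ∂p =
        ∑ j ∈ Finset.range (N + 1), F (j * δ) * (c * ∫ g, hat δ j g ∂p) := by
      unfold interp
      rw [integral_finsetSum _ fun j _ => (hhi j).const_mul _, Finset.mul_sum]
      refine Finset.sum_congr rfl fun j _ => ?_
      rw [integral_const_mul]; ring
    rw [e5]
    simp_rw [e4]
    exact tendsto_finsetSum _ fun j _ => (hhat δ hδ j).const_mul _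
  have hb1 : ∀ k, |Λ k F - Λ k (interp δ N F)| ≤ e2 * Λ k (fun _ => 1) + 2 * C * Λ k (call S) := by
    intro k
    have := (hΛ k).abs_sub_le (F := F) (G := interp δ N F) (K := fun g => e2 * 1 + 2 * C * call S g)
      (fun g hg => interp_err hδ hC N hN' hS hu hg)
    rwa [(hΛ k).add (fun _ => e2 * 1) (fun g => 2 * C * call S g), (hΛ k).smul, (hΛ k).smul] at this
  have hb2 : |∫ g, F g ∂p - ∫ g, interp δ N F g ∂p| ≤ e2 + 2 * C * ∫ g, call S g ∂p := by
    have hii : Integrable (interp δ N F) p := by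
      unfold interp
      refine integrable_finsetSum _ fun j _ => Integrable.const_mul ?_ _
      unfold hat
      split_ifs
      · exact ((integrable_const 1).sub ((hcallint _).const_mul _)).add ((hcallint _).const_mul _)
      · exact (((hcallint _).const_mul _).sub ((hcallint _).const_mul _)).add
          ((hcallint _).const_mul _)
    rw [← integral_sub hFint hii]
    refine le_trans (abs_integral_le_integral_abs) ?_
    have e6 : e2 + 2 * C * ∫ g, call S g ∂p = ∫ g, (e2 * 1 + 2 * C * call S g) ∂p := by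
      have h := int3 (p := p) (integrable_const (1:ℝ)) (hcallint S) (hcallint S) e2 (2 * C) 0
      simp only [integral_const, probReal_univ, smul_eq_mul, mul_one, zero_mul, add_zero] at h
      simp only [mul_one]
      exact h.symm
    rw [e6]
    refine integral_mono_ae (hFint.sub hii).abs ((integrable_const _).add ((hcallint _).const_mul _)) ?_
    filter_upwards [hae] with g hg
    exact interp_err hδ hC N hN' hS hu hg
  have hlim : Tendsto (fun k => e2 * Λ k (fun _ => 1) + 2 * C * Λ k (call S)) l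
      (𝓝 (e2 * c + 2 * C * (c * ∫ g, call S g ∂p))) :=
    (h1.const_mul _).add ((hs S hS).const_mul _)
  have hcint : 0 ≤ ∫ g, call S g ∂p := integral_nonneg fun g => call_nonneg _ _
  have hval : e2 * c + 2 * C * (c * ∫ g, call S g ∂p) < 3 / 8 * ε := by
    have a1 : e2 * c ≤ ε / 8 := by
      rw [he2, div_mul_eq_mul_div, div_le_iff₀ (by positivity)]
      nlinarith
    have a2 : 2 * C * (c * ∫ g, call S g ∂p) ≤ (2 * C + 1) * ((c + 1) * e1) := by
      apply mul_le_mul (by linarith) _ (by positivity) (by positivity)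
      exact mul_le_mul (by linarith) hK'.le hcint (by positivity)
    have a3 : (2 * C + 1) * ((c + 1) * e1) = ε / 4 := by
      rw [he1]; field_simp
    by_cases hz : 2 * C * (c * ∫ g, call S g ∂p) < ε / 4
    · linarith
    · have a4 : 2 * C * (c * ∫ g, call S g ∂p) ≤ 2 * C * (c * e1) := by
        apply mul_le_mul_of_nonneg_left _ (by positivity)
        exact mul_le_mul_of_nonneg_left hK'.le hc0
      have a5 : 2 * C * (c * e1) < (2 * C + 1) * ((c + 1) * e1) := by nlinarith [mul_nonneg hC0 he1p.le, mul_nonneg hc0 he1p.le]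
      linarith
  have ev1 := (tendsto_order.1 hlim).2 _ hval
  have ev2 := Metric.tendsto_nhds.1 hI (ε / 8) (by positivity)
  filter_upwards [ev1, ev2] with k hk1 hk2
  rw [Real.dist_eq] at hk2 ⊢
  have t1 := hb1 k
  have t2 : |c * ∫ g, F g ∂p - c * ∫ g, interp δ N F g ∂p| ≤ c * (e2 + 2 * C * ∫ g, call S g ∂p) := by
    rw [← mul_sub, abs_mul, abs_of_nonneg hc0]
    exact mul_le_mul_of_nonneg_left hb2 hc0
  have t3 : c * (e2 + 2 * C * ∫ g, call S g ∂p) < 3 / 8 * ε := by
    have : c * (e2 + 2 * C * ∫ g, call S g ∂p) = e2 * c + 2 * C * (c * ∫ g, call S g ∂p) := by ring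
    rw [this]; exact hval
  have t4 : Λ k F - c * ∫ g, F g ∂p = (Λ k F - Λ k (interp δ N F)) +
      (Λ k (interp δ N F) - c * ∫ g, interp δ N F g ∂p) -
      (c * ∫ g, F g ∂p - c * ∫ g, interp δ N F g ∂p) := by ring
  rw [t4]
  have t5 := abs_add_le ((Λ k F - Λ k (interp δ N F)) + (Λ k (interp δ N F) - c * ∫ g, interp δ N F g ∂p))
    (-(c * ∫ g, F g ∂p - c * ∫ g, interp δ N F g ∂p))
  have t6 := abs_add_le (Λ k F - Λ k (interp δ N F)) (Λ k (interp δ N F) - c * ∫ g, interp δ N F g ∂p)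
  rw [abs_neg] at t5
  rw [sub_eq_add_neg]
  linarith

end

end Vale.Agent.P156.H761
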