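import Mathlib.MeasureTheory.Integral.IntervalIntegral.FundThmCalculus
import Mathlib.MeasureTheory.Integral.Bochner.Set
import Mathlib.MeasureTheory.Measure.Lebesgue.Basic
import Mathlib.Analysis.Calculus.Monotone

/-! Deterministic identity: the measure of the energies with a hole above them versus the sum of
the call prices of the spacings. -/

open MeasureTheory Filter Topology Set

namespace Vale.Agent.P156.H761

noncomputable section

open Classical in
/-- indicator as a real number -/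
def ind (P : Prop) : ℝ := if P then 1 else 0

lemma ind_nonneg (P : Prop) : 0 ≤ ind P := by unfold ind; split_ifs <;> norm_num
lemma ind_le_one (P : Prop) : ind P ≤ 1 := by unfold ind; split_ifs <;> norm_num
lemma ind_true {P : Prop} (h : P) : ind P = 1 := by simp [ind, h]
lemma ind_false {P : Prop} (h : ¬ P) : ind P = 0 := by simp [ind, h]
lemma ind_mono {P Q : Prop} (h : P → Q) : ind P ≤ ind Q := by
  by_cases hP : P
  · rw [ind_true hP, ind_true (h hP)]
  · rw [ind_false hP]; exact ind_nonneg _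

/-- the basic integral -/
lemma integral_step {n c s u v : ℝ} (hn : 0 < n) (hc : 0 < c) (hs : 0 ≤ s) (_huv : u ≤ v) :
    ∫ E in Ioc u v, c * ind (s < n * c * (v - E)) = n⁻¹ * max (n * c * (v - u) - s) 0 := by
  have hnc : 0 < n * c := mul_pos hn hc
  have h1 : ∀ E, c * ind (s < n * c * (v - E)) = (Iio (v - s / (n * c))).indicator (fun _ => c) E := by
    intro E
    by_cases h : s < n * c * (v - E)
    · rw [ind_true h, indicator_of_mem, mul_one]
      show E < v - s / (n * c)
      have : s / (n * c) < v - E := by rw [div_lt_iff₀ hnc]; linarith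
      linarith
    · rw [ind_false h, indicator_of_notMem, mul_zero]
      intro h2
      have h3 : E < v - s / (n * c) := h2
      apply h
      have : s / (n * c) < v - E := by linarith
      rw [div_lt_iff₀ hnc] at this
      linarith
  simp_rw [h1]
  rw [integral_indicator measurableSet_Iio, Measure.restrict_restrict measurableSet_Iio,
    setIntegral_const]
  have hs' : 0 ≤ s / (n * c) := div_nonneg hs hnc.le
  have h2 : Iio (v - s / (n * c)) ∩ Ioc u v = Ioo u (v - s / (n * c)) := by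
    ext E
    simp only [mem_inter_iff, mem_Iio, mem_Ioc, mem_Ioo]
    constructor
    · rintro ⟨h1, h2, _⟩; exact ⟨h2, h1⟩
    · rintro ⟨h1, h2⟩; exact ⟨h2, h1, by linarith⟩
  rw [h2, measureReal_def, Real.volume_Ioo, smul_eq_mul]
  rcases le_total (v - s / (n * c)) u with h | h
  · rw [ENNReal.ofReal_of_nonpos (by linarith), ENNReal.toReal_zero, zero_mul, max_eq_right, mul_zero]
    have : v - u ≤ s / (n * c) := by linarith
    rw [le_div_iff₀ hnc] at this
    linarith
  · rw [ENNReal.toReal_ofReal (by linarith), max_eq_left]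
    · field_simp
      ring
    · have : s / (n * c) ≤ v - u := by linarith
      rw [div_le_iff₀ hnc] at this
      linarith

lemma ind_hole_eq {x : ℕ → ℝ} (hx : Monotone x) (N : ℕ) {n r s E : ℝ} (hnr : 0 < n * r)
    (h0 : x 0 < E) (hN : E ≤ x N) :
    ind (∀ i ≤ N, ¬ (0 ≤ n * r * (x i - E) ∧ n * r * (x i - E) ≤ s)) =
      ∑ i ∈ Finset.range N, ind (x i < E ∧ E ≤ x (i + 1)) * ind (s < n * r * (x (i + 1) - E)) := by
  classical
  -- the index
  obtain ⟨k, hk, hk1, hk2⟩ : ∃ k, k < N ∧ x k < E ∧ E ≤ x (k + 1) := by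
    by_contra hcon
    push Not at hcon
    have : ∀ k ≤ N, x k < E := by
      intro k
      induction k with
      | zero => intro _; exact h0
      | succ k ih => intro hk; exact hcon k (by omega) (ih (by omega))
    exact absurd hN (not_le.2 (this N le_rfl))
  rw [Finset.sum_eq_single_of_mem k (Finset.mem_range.2 hk)]
  · rw [ind_true (P := x k < E ∧ E ≤ x (k + 1)) ⟨hk1, hk2⟩, one_mul]
    by_cases h : s < n * r * (x (k + 1) - E)
    · rw [ind_true h, ind_true (P := ∀ i ≤ N, ¬ (0 ≤ n * r * (x i - E) ∧ n * r * (x i - E) ≤ s))]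
      rintro i hi ⟨h1, h2⟩
      have h3 : E ≤ x i := by
        by_contra h4
        have : n * r * (x i - E) < 0 := mul_neg_of_pos_of_neg hnr (by linarith [not_le.1 h4])
        linarith
      have h5 : k + 1 ≤ i := by
        by_contra h6
        have : x i ≤ x k := hx (by omega)
        linarith
      have h7 : x (k + 1) ≤ x i := hx h5
      have : n * r * (x (k + 1) - E) ≤ n * r * (x i - E) :=
        mul_le_mul_of_nonneg_left (by linarith) hnr.le
      linarith
    · rw [ind_false h, ind_false (P := ∀ i ≤ N, ¬ (0 ≤ n * r * (x i - E) ∧ n * r * (x i - E) ≤ s))]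
      intro h1
      exact h1 (k + 1) (by omega) ⟨mul_nonneg hnr.le (by linarith), not_lt.1 h⟩
  · intro i hi hik
    rw [ind_false, zero_mul]
    rintro ⟨h1, h2⟩
    rcases lt_or_gt_of_ne hik with h | h
    · have : x (i + 1) ≤ x k := hx (by omega)
      linarith
    · have : x (k + 1) ≤ x i := hx (by omega)
      linarith

/-- the part of the hole integral in the gap `i` -/
def Ai (x : ℕ → ℝ) (ρ : ℝ → ℝ) (n s a b : ℝ) (i : ℕ) : ℝ :=
  ∫ E in Icc a b, ρ E * (ind (x i < E ∧ E ≤ x (i + 1)) * ind (s < n * ρ E * (x (i + 1) - E)))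

/-- the call price of the gap `i` -/
def Bi (x : ℕ → ℝ) (ρ : ℝ → ℝ) (n s a b : ℝ) (i : ℕ) : ℝ :=
  ind (a ≤ x i ∧ x i ≤ b) * (n⁻¹ * max (n * ρ (x i) * (x (i + 1) - x i) - s) 0)

lemma measurable_ind {p : ℝ → Prop} (hp : MeasurableSet {E | p E}) : Measurable fun E => ind (p E) := by
  classical
  unfold ind
  exact Measurable.ite hp measurable_const measurable_const

section

variable {x : ℕ → ℝ} {ρ : ℝ → ℝ} {n s a b r1 L δ : ℝ}

lemma integrand_meas (hρc : Measurable ρ) (i : ℕ) : Measurable fun E =>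
    ρ E * (ind (x i < E ∧ E ≤ x (i + 1)) * ind (s < n * ρ E * (x (i + 1) - E))) := by
  refine hρc.mul ((measurable_ind ?_).mul (measurable_ind ?_))
  · exact (measurableSet_Ioc : MeasurableSet (Ioc (x i) (x (i + 1))))
  · exact measurableSet_lt measurable_const ((hρc.const_mul n).mul (measurable_const.sub measurable_id))

lemma integrand_int (hρc : Measurable ρ) (hρ : ∀ E ∈ Icc a b, 0 < ρ E ∧ ρ E ≤ r1) (i : ℕ) :
    IntegrableOn (fun E => ρ E * (ind (x i < E ∧ E ≤ x (i + 1)) *
      ind (s < n * ρ E * (x (i + 1) - E)))) (Icc a b) := by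
  refine Measure.integrableOn_of_bounded (M := r1) (by simp) (integrand_meas hρc i).aestronglyMeasurable ?_
  rw [ae_restrict_iff' measurableSet_Icc]
  refine Eventually.of_forall fun E hE => ?_
  obtain ⟨h1, h2⟩ := hρ E hE
  rw [Real.norm_eq_abs, abs_mul, abs_of_pos h1,
    abs_of_nonneg (mul_nonneg (ind_nonneg _) (ind_nonneg _))]
  have h3 := mul_le_one₀ (ind_le_one (x i < E ∧ E ≤ x (i + 1))) (ind_nonneg _)
    (ind_le_one (s < n * ρ E * (x (i + 1) - E)))
  have h4 := mul_nonneg (ind_nonneg (x i < E ∧ E ≤ x (i + 1)))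
    (ind_nonneg (s < n * ρ E * (x (i + 1) - E)))
  nlinarith

lemma Ai_nonneg (hρ : ∀ E ∈ Icc a b, 0 < ρ E ∧ ρ E ≤ r1) (i : ℕ) : 0 ≤ Ai x ρ n s a b i :=
  setIntegral_nonneg measurableSet_Icc fun E hE =>
    mul_nonneg (hρ E hE).1.le (mul_nonneg (ind_nonneg _) (ind_nonneg _))

lemma Bi_nonneg (hn : 0 < n) (i : ℕ) : 0 ≤ Bi x ρ n s a b i :=
  mul_nonneg (ind_nonneg _) (mul_nonneg (inv_nonneg.2 hn.le) (le_max_right _ _))

lemma Bi_le (hn : 0 < n) (hs : 0 ≤ s) (hx : Monotone x) (hρ : ∀ E ∈ Icc a b, 0 < ρ E ∧ ρ E ≤ r1)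
    (hr1 : 0 ≤ r1) (i : ℕ) : Bi x ρ n s a b i ≤ r1 * (x (i + 1) - x i) := by
  have hg : 0 ≤ x (i + 1) - x i := sub_nonneg.2 (hx (Nat.le_succ i))
  unfold Bi
  by_cases h : a ≤ x i ∧ x i ≤ b
  · rw [ind_true h, one_mul]
    obtain ⟨h1, h2⟩ := hρ (x i) h
    rw [inv_mul_le_iff₀ hn]
    refine max_le ?_ (by positivity)
    have : n * ρ (x i) * (x (i + 1) - x i) ≤ n * r1 * (x (i + 1) - x i) := by gcongr
    linarith
  · rw [ind_false h, zero_mul]; positivity

lemma Ai_le (hρc : Measurable ρ) (hx : Monotone x) (hρ : ∀ E ∈ Icc a b, 0 < ρ E ∧ ρ E ≤ r1)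
    (hr1 : 0 ≤ r1) (i : ℕ) : Ai x ρ n s a b i ≤ r1 * (x (i + 1) - x i) := by
  have hg : 0 ≤ x (i + 1) - x i := sub_nonneg.2 (hx (Nat.le_succ i))
  have h1 : Ai x ρ n s a b i ≤ ∫ E in Icc a b, (Ioc (x i) (x (i + 1))).indicator (fun _ => r1) E := by
    refine setIntegral_mono_on (integrand_int hρc hρ i) ?_ measurableSet_Icc fun E hE => ?_
    · exact (integrableOn_const (by simp)).indicator measurableSet_Ioc
    · obtain ⟨h1, h2⟩ := hρ E hE
      by_cases h : x i < E ∧ E ≤ x (i + 1)
      · rw [ind_true h, one_mul, indicator_of_mem (show E ∈ Ioc (x i) (x (i + 1)) from h)]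
        have := ind_le_one (s < n * ρ E * (x (i + 1) - E))
        have := ind_nonneg (s < n * ρ E * (x (i + 1) - E))
        nlinarith
      · rw [ind_false h, zero_mul, mul_zero]
        exact indicator_nonneg (fun _ _ => hr1) _
  refine le_trans h1 ?_
  rw [integral_indicator measurableSet_Ioc, Measure.restrict_restrict measurableSet_Ioc,
    setIntegral_const, smul_eq_mul, mul_comm]
  refine mul_le_mul_of_nonneg_left ?_ hr1
  rw [measureReal_def]
  refine le_trans (ENNReal.toReal_mono (by simp) (measure_mono inter_subset_left)) ?_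
  rw [Real.volume_Ioc, ENNReal.toReal_ofReal hg]

/-- both endpoints of the gap in the window -/
lemma Ai_sub_Bi_inner (hn : 0 < n) (hs : 0 ≤ s) (hx : Monotone x) (hρc : Measurable ρ)
    (hρ : ∀ E ∈ Icc a b, 0 < ρ E ∧ ρ E ≤ r1) (hL : 0 ≤ L)
    (hLip : ∀ E ∈ Icc a b, ∀ E' ∈ Icc a b, |ρ E - ρ E'| ≤ L * |E - E'|) (i : ℕ)
    (h1 : a ≤ x i) (h2 : x (i + 1) ≤ b) :
    |Ai x ρ n s a b i - Bi x ρ n s a b i| ≤ L * (x (i + 1) - x i) ^ 2 := by
  have hg : x i ≤ x (i + 1) := hx (Nat.le_succ i)
  set u := x i with hu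
  set v := x (i + 1) with hv
  have huJ : u ∈ Icc a b := ⟨h1, by linarith⟩
  obtain ⟨hρ1, hρ2⟩ := hρ u huJ
  have hA : Ai x ρ n s a b i = ∫ E in Ioc u v, ρ E * ind (s < n * ρ E * (v - E)) := by
    unfold Ai
    have e : ∀ E, ρ E * (ind (x i < E ∧ E ≤ x (i + 1)) * ind (s < n * ρ E * (x (i + 1) - E))) =
        (Ioc u v).indicator (fun E => ρ E * ind (s < n * ρ E * (v - E))) E := by
      intro E
      by_cases h : x i < E ∧ E ≤ x (i + 1)
      · rw [ind_true h, one_mul, indicator_of_mem (show E ∈ Ioc u v from h)]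
      · rw [ind_false h, zero_mul, mul_zero, indicator_of_notMem (show E ∉ Ioc u v from h)]
    simp_rw [e]
    rw [integral_indicator measurableSet_Ioc, Measure.restrict_restrict measurableSet_Ioc]
    congr 2
    ext E
    simp only [mem_inter_iff, mem_Ioc, mem_Icc]
    constructor
    · rintro ⟨h, _⟩; exact h
    · rintro ⟨h3, h4⟩; exact ⟨⟨h3, h4⟩, by linarith, by linarith⟩
  have hB : Bi x ρ n s a b i = n⁻¹ * max (n * ρ u * (v - u) - s) 0 := by
    unfold Bi
    rw [ind_true ⟨h1, by linarith⟩, one_mul]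
  have hint : IntegrableOn (fun E => ρ E * ind (s < n * ρ E * (v - E))) (Ioc u v) := by
    refine Measure.integrableOn_of_bounded (M := r1) (by simp) ?_ ?_
    · refine (hρc.mul (measurable_ind ?_)).aestronglyMeasurable
      exact measurableSet_lt measurable_const ((hρc.const_mul n).mul (measurable_const.sub measurable_id))
    · rw [ae_restrict_iff' measurableSet_Ioc]
      refine Eventually.of_forall fun E hE => ?_
      obtain ⟨h3, h4⟩ := hρ E ⟨by linarith [hE.1], by linarith [hE.2]⟩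
      rw [Real.norm_eq_abs, abs_mul, abs_of_pos h3, abs_of_nonneg (ind_nonneg _)]
      have := ind_le_one (s < n * ρ E * (v - E))
      have := ind_nonneg (s < n * ρ E * (v - E))
      nlinarith
  have hintc : ∀ c : ℝ, IntegrableOn (fun E => c * ind (s < n * c * (v - E))) (Ioc u v) := by
    intro c
    refine Measure.integrableOn_of_bounded (M := |c|) (by simp) ?_ ?_
    · refine (measurable_const.mul (measurable_ind ?_)).aestronglyMeasurable
      exact measurableSet_lt measurable_const (measurable_const.mul (measurable_const.sub measurable_id))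
    · refine Eventually.of_forall fun E => ?_
      rw [Real.norm_eq_abs, abs_mul, abs_of_nonneg (ind_nonneg _)]
      exact mul_le_of_le_one_right (abs_nonneg _) (ind_le_one _)
  -- comparison on the gap
  have key : ∀ M X : ℝ, n⁻¹ * (M + n * X) = n⁻¹ * M + X := fun M X => by field_simp
  have hcmp : ∀ E ∈ Ioc u v, |ρ E - ρ u| ≤ L * (v - u) := by
    intro E hE
    refine le_trans (hLip E ⟨by linarith [hE.1], by linarith [hE.2]⟩ u huJ) ?_
    rw [abs_of_pos (by linarith [hE.1])]
    exact mul_le_mul_of_nonneg_left (by linarith [hE.2]) hL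
  have hup : Ai x ρ n s a b i ≤ Bi x ρ n s a b i + L * (v - u) ^ 2 := by
    rw [hA, hB]
    set c := ρ u + L * (v - u) with hc
    have hcpos : 0 < c := by
      have := mul_nonneg hL (sub_nonneg.2 hg)
      linarith
    have h3 : ∫ E in Ioc u v, ρ E * ind (s < n * ρ E * (v - E)) ≤
        ∫ E in Ioc u v, c * ind (s < n * c * (v - E)) := by
      refine setIntegral_mono_on hint (hintc c) measurableSet_Ioc fun E hE => ?_
      have h4 : ρ E ≤ c := by have := (abs_le.1 (hcmp E hE)).2; linarith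
      obtain ⟨h5, _⟩ := hρ E ⟨by linarith [hE.1], by linarith [hE.2]⟩
      refine mul_le_mul h4 (ind_mono fun h => lt_of_lt_of_le h ?_) (ind_nonneg _) hcpos.le
      have : 0 ≤ v - E := by linarith [hE.2]
      gcongr
    refine le_trans h3 ?_
    rw [integral_step hn hcpos hs hg]
    have h6 : max (n * c * (v - u) - s) 0 ≤ max (n * ρ u * (v - u) - s) 0 + n * (L * (v - u) ^ 2) := by
      refine max_le ?_ (by positivity)
      have := le_max_left (n * ρ u * (v - u) - s) 0
      have e : n * c * (v - u) - s = (n * ρ u * (v - u) - s) + n * (L * (v - u) ^ 2) := by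
        rw [hc]; ring
      rw [e]; linarith
    have h7 := mul_le_mul_of_nonneg_left h6 (inv_nonneg.2 hn.le)
    rw [key] at h7
    exact h7
  have hlow : Bi x ρ n s a b i - L * (v - u) ^ 2 ≤ Ai x ρ n s a b i := by
    rw [hA, hB]
    set c := ρ u - L * (v - u) with hc
    rcases le_or_gt c 0 with hc0 | hcpos
    · have h8 : n⁻¹ * max (n * ρ u * (v - u) - s) 0 ≤ ρ u * (v - u) := by
        rw [inv_mul_le_iff₀ hn]
        refine max_le ?_ (mul_nonneg hn.le (mul_nonneg hρ1.le (sub_nonneg.2 hg)))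
        have : n * ρ u * (v - u) = n * (ρ u * (v - u)) := by ring
        linarith
      have h9 : 0 ≤ ∫ E in Ioc u v, ρ E * ind (s < n * ρ E * (v - E)) :=
        setIntegral_nonneg measurableSet_Ioc fun E hE => mul_nonneg
          (hρ E ⟨by linarith [hE.1], by linarith [hE.2]⟩).1.le (ind_nonneg _)
      have h10 : c * (v - u) ≤ 0 := mul_nonpos_of_nonpos_of_nonneg hc0 (sub_nonneg.2 hg)
      have h11 : ρ u * (v - u) - L * (v - u) ^ 2 = c * (v - u) := by rw [hc]; ring
      linarith
    · have h3 : ∫ E in Ioc u v, c * ind (s < n * c * (v - E)) ≤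
          ∫ E in Ioc u v, ρ E * ind (s < n * ρ E * (v - E)) := by
        refine setIntegral_mono_on (hintc c) hint measurableSet_Ioc fun E hE => ?_
        have h4 : c ≤ ρ E := by have := (abs_le.1 (hcmp E hE)).1; linarith
        obtain ⟨h5, _⟩ := hρ E ⟨by linarith [hE.1], by linarith [hE.2]⟩
        refine mul_le_mul h4 (ind_mono fun h => lt_of_lt_of_le h ?_) (ind_nonneg _) h5.le
        have : 0 ≤ v - E := by linarith [hE.2]
        gcongr
      refine le_trans ?_ h3
      rw [integral_step hn hcpos hs hg]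
      have h6 : max (n * ρ u * (v - u) - s) 0 ≤ max (n * c * (v - u) - s) 0 + n * (L * (v - u) ^ 2) := by
        refine max_le ?_ (by positivity)
        have := le_max_left (n * c * (v - u) - s) 0
        have e : n * c * (v - u) - s = (n * ρ u * (v - u) - s) - n * (L * (v - u) ^ 2) := by
          rw [hc]; ring
        linarith
      have h7 := mul_le_mul_of_nonneg_left h6 (inv_nonneg.2 hn.le)
      rw [key] at h7
      linarith
  rw [abs_le]
  constructor <;> linarith

lemma Ai_eq_zero (i : ℕ) (h : x (i + 1) < a ∨ b < x i) : Ai x ρ n s a b i = 0 := by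
  unfold Ai
  refine setIntegral_eq_zero_of_forall_eq_zero fun E hE => ?_
  rw [ind_false, zero_mul, mul_zero]
  rintro ⟨h1, h2⟩
  rcases h with h | h
  · linarith [hE.1]
  · linarith [hE.2]

lemma Bi_eq_zero (i : ℕ) (h : x i < a ∨ b < x i) : Bi x ρ n s a b i = 0 := by
  unfold Bi
  rw [ind_false, zero_mul]
  rintro ⟨h1, h2⟩
  rcases h with h | h <;> linarith

/-- total comparison -/
theorem hole_sum_close (hn : 0 < n) (hs : 0 ≤ s) (hab : a ≤ b) (hx : Monotone x) (N : ℕ)
    (hx0 : x 0 < a) (hxN : b ≤ x N) (hρc : Measurable ρ)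
    (hρ : ∀ E ∈ Icc a b, 0 < ρ E ∧ ρ E ≤ r1) (hL : 0 ≤ L)
    (hLip : ∀ E ∈ Icc a b, ∀ E' ∈ Icc a b, |ρ E - ρ E'| ≤ L * |E - E'|) (hδ : 0 ≤ δ)
    (hgap : ∀ i < N, x i ≤ b → a ≤ x (i + 1) → x (i + 1) - x i ≤ δ) :
    |(∫ E in Icc a b, ρ E * ind (∀ i ≤ N, ¬ (0 ≤ n * ρ E * (x i - E) ∧ n * ρ E * (x i - E) ≤ s)))
      - ∑ i ∈ Finset.range N, Bi x ρ n s a b i| ≤ L * δ * (b - a) + 2 * (r1 * δ) := by
  have hr1 : 0 ≤ r1 := by
    obtain ⟨h1, h2⟩ := hρ a ⟨le_rfl, hab⟩
    linarith
  have e1 : (∫ E in Icc a b, ρ E * ind (∀ i ≤ N, ¬ (0 ≤ n * ρ E * (x i - E) ∧ n * ρ E * (x i - E) ≤ s)))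
      = ∑ i ∈ Finset.range N, Ai x ρ n s a b i := by
    unfold Ai
    rw [← integral_finsetSum _ fun i _ => integrand_int hρc hρ i]
    refine setIntegral_congr_fun measurableSet_Icc fun E hE => ?_
    show ρ E * _ = _
    rw [ind_hole_eq hx N (mul_pos hn (hρ E hE).1) (by linarith [hE.1]) (by linarith [hE.2]),
      Finset.mul_sum]
  rw [e1, ← Finset.sum_sub_distrib]
  refine le_trans (Finset.abs_sum_le_sum_abs _ _) ?_
  set cl : ℝ → ℝ := fun y => max a (min y b) with hcl
  have hclmono : Monotone cl := fun y z hyz => max_le_max le_rfl (min_le_min hyz le_rfl)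
  have hterm : ∀ i ∈ Finset.range N, |Ai x ρ n s a b i - Bi x ρ n s a b i| ≤
      L * δ * (cl (x (i + 1)) - cl (x i)) + r1 * δ * (ind (x i ≤ b) - ind (x (i + 1) ≤ b))
        + r1 * δ * (ind (x i < a) - ind (x (i + 1) < a)) := by
    intro i hi
    have hmon : x i ≤ x (i + 1) := hx (Nat.le_succ i)
    have t1 : 0 ≤ L * δ * (cl (x (i + 1)) - cl (x i)) :=
      mul_nonneg (mul_nonneg hL hδ) (sub_nonneg.2 (hclmono hmon))
    have t2 : 0 ≤ r1 * δ * (ind (x i ≤ b) - ind (x (i + 1) ≤ b)) :=
      mul_nonneg (mul_nonneg hr1 hδ) (sub_nonneg.2 (ind_mono fun h => le_trans hmon h))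
    have t3 : 0 ≤ r1 * δ * (ind (x i < a) - ind (x (i + 1) < a)) :=
      mul_nonneg (mul_nonneg hr1 hδ) (sub_nonneg.2 (ind_mono fun h => lt_of_le_of_lt hmon h))
    by_cases c1 : x (i + 1) < a
    · rw [Ai_eq_zero i (Or.inl c1), Bi_eq_zero i (Or.inl (lt_of_le_of_lt hmon c1))]
      simp only [sub_self, abs_zero]
      linarith
    by_cases c2 : b < x i
    · rw [Ai_eq_zero i (Or.inr c2), Bi_eq_zero i (Or.inr c2)]
      simp only [sub_self, abs_zero]
      linarith
    rw [not_lt] at c1 c2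
    have hg : x (i + 1) - x i ≤ δ := hgap i (Finset.mem_range.1 hi) c2 c1
    have hg0 : 0 ≤ x (i + 1) - x i := sub_nonneg.2 hmon
    by_cases c3 : x i < a
    · rw [Bi_eq_zero i (Or.inl c3), sub_zero, abs_of_nonneg (Ai_nonneg hρ i)]
      have h1 := Ai_le (n := n) (s := s) hρc hx hρ hr1 i
      have h2 : r1 * δ * (ind (x i < a) - ind (x (i + 1) < a)) = r1 * δ := by
        rw [ind_true c3, ind_false (not_lt.2 c1), sub_zero, mul_one]
      have h3 : r1 * (x (i + 1) - x i) ≤ r1 * δ := mul_le_mul_of_nonneg_left hg hr1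
      linarith
    rw [not_lt] at c3
    by_cases c4 : x (i + 1) ≤ b
    · have h1 := Ai_sub_Bi_inner (n := n) (s := s) hn hs hx hρc hρ hL hLip i c3 c4
      have h2 : cl (x (i + 1)) - cl (x i) = x (i + 1) - x i := by
        simp only [hcl]
        rw [min_eq_left c4, min_eq_left c2, max_eq_right c1, max_eq_right c3]
      have h3 : L * (x (i + 1) - x i) ^ 2 ≤ L * δ * (x (i + 1) - x i) := by
        rw [sq, mul_assoc L δ]
        exact mul_le_mul_of_nonneg_left (mul_le_mul_of_nonneg_right hg hg0) hL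
      rw [h2]
      linarith
    · rw [not_le] at c4
      have h1 := Ai_le (n := n) (s := s) hρc hx hρ hr1 i
      have h1' := Ai_nonneg (x := x) (n := n) (s := s) hρ i
      have h4 := Bi_le (s := s) hn hs hx hρ hr1 i
      have h4' := Bi_nonneg (x := x) (ρ := ρ) (s := s) (a := a) (b := b) hn i
      have h2 : r1 * δ * (ind (x i ≤ b) - ind (x (i + 1) ≤ b)) = r1 * δ := by
        rw [ind_true c2, ind_false (not_le.2 c4), sub_zero, mul_one]
      have h3 : r1 * (x (i + 1) - x i) ≤ r1 * δ := mul_le_mul_of_nonneg_left hg hr1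
      rw [abs_le]
      constructor <;> linarith
  refine le_trans (Finset.sum_le_sum hterm) ?_
  rw [Finset.sum_add_distrib, Finset.sum_add_distrib, ← Finset.mul_sum, ← Finset.mul_sum,
    ← Finset.mul_sum, Finset.sum_range_sub (fun i => cl (x i)) N,
    Finset.sum_range_sub' (fun i => ind (x i ≤ b)) N,
    Finset.sum_range_sub' (fun i => ind (x i < a)) N]
  have u1 : cl (x N) - cl (x 0) ≤ b - a := by
    have v1 : cl (x N) ≤ b := max_le hab (min_le_right _ _)
    have v2 : a ≤ cl (x 0) := le_max_left _ _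
    linarith
  have u2 : ind (x 0 ≤ b) - ind (x N ≤ b) ≤ 1 := by
    have := ind_le_one (x 0 ≤ b)
    have := ind_nonneg (x N ≤ b)
    linarith
  have u3 : ind (x 0 < a) - ind (x N < a) ≤ 1 := by
    have := ind_le_one (x 0 < a)
    have := ind_nonneg (x N < a)
    linarith
  have w1 := mul_le_mul_of_nonneg_left u1 (mul_nonneg hL hδ)
  have w2 := mul_le_mul_of_nonneg_left u2 (mul_nonneg hr1 hδ)
  have w3 := mul_le_mul_of_nonneg_left u3 (mul_nonneg hr1 hδ)
  linarith

end

end

end Vale.Agent.P156.H761
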