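import Vale.Agent.P156.H761.Call
import Mathlib.MeasureTheory.Measure.Prokhorov

/-! Existence of the limit law with given call prices. -/

open MeasureTheory Filter Topology Set
open scoped NNReal ENNReal

namespace Vale.Agent.P156.H761

noncomputable section

lemma integrable_call {p : Measure ℝ} [IsFiniteMeasure p] (hint : Integrable (fun g => g) p) (s : ℝ) :
    Integrable (call s) p := by
  unfold call
  exact (hint.sub (integrable_const s)).sup (integrable_const 0)

lemma call_cont (s : ℝ) : Continuous (call s) := by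
  unfold call
  exact (continuous_id.sub continuous_const).max continuous_const

lemma call_add_le {s M g : ℝ} (hM : 0 ≤ M) : call s g - call (s + M) g ≤ M := by
  unfold call
  rcases le_total (g - s) 0 with h | h
  · rw [max_eq_right h, max_eq_right (by linarith)]; linarith
  · rw [max_eq_left h]
    have := le_max_left (g - (s + M)) 0
    linarith

lemma call_anti {s M g : ℝ} (hM : 0 ≤ M) : call (s + M) g ≤ call s g := by
  unfold call
  exact max_le_max (by linarith) le_rfl

theorem exists_law {κ : Type*} {l : Filter κ} [hl : l.NeBot] (ν : κ → Measure ℝ)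
    [hprob : ∀ k, IsProbabilityMeasure (ν k)]
    (h0 : ∀ k, ν k (Iio 0) = 0) (hint : ∀ k, Integrable (fun g => g) (ν k))
    (H : ℝ → ℝ) (hs : ∀ s, 0 ≤ s → Tendsto (fun k => ∫ g, call s g ∂(ν k)) l (𝓝 (H s)))
    (hH : Tendsto H atTop (𝓝 0)) :
    ∃ p : Measure ℝ, IsProbabilityMeasure p ∧ p (Iio 0) = 0 ∧ Integrable (fun g => g) p ∧
      ∀ s, 0 ≤ s → ∫ g, call s g ∂p = H s := by
  classical
  set M : ℝ := H 0 + 1 with hM
  have hev : ∀ᶠ k in l, ∫ g, call 0 g ∂(ν k) < M := (tendsto_order.1 (hs 0 le_rfl)).2 _ (by linarith)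
  have hnn : ∀ k, ∀ᵐ g ∂(ν k), 0 ≤ g := by
    intro k
    rw [ae_iff]
    have : {a : ℝ | ¬ 0 ≤ a} = Iio 0 := by ext a; simp
    rw [this]; exact h0 k
  have hMpos : 0 < M := by
    obtain ⟨k, hk⟩ := hev.exists
    exact lt_of_le_of_lt (integral_nonneg fun g => call_nonneg _ _) hk
  let P : κ → ProbabilityMeasure ℝ := fun k => ⟨ν k, hprob k⟩
  let S : Set (ProbabilityMeasure ℝ) := {μ | ∃ k, μ = P k ∧ ∫ g, call 0 g ∂(ν k) < M}
  have hT : IsTightMeasureSet {((μ : ProbabilityMeasure ℝ) : Measure ℝ) | μ ∈ S} := by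
    rw [isTightMeasureSet_iff_exists_isCompact_measure_compl_le]
    intro ε hε
    by_cases htop : ε = ⊤
    · exact ⟨∅, isCompact_empty, fun μ _ => by rw [htop]; exact le_top⟩
    obtain ⟨e, rfl⟩ : ∃ e : ℝ≥0, ε = e := ⟨ε.toNNReal, (ENNReal.coe_toNNReal htop).symm⟩
    have he : (0 : ℝ) < e := by exact_mod_cast hε
    refine ⟨Icc 0 (M / e), isCompact_Icc, ?_⟩
    rintro _ ⟨μ, ⟨k, rfl, hk⟩, rfl⟩
    change ν k (Icc 0 (M / e))ᶜ ≤ e
    have h1 : (Icc 0 (M / e))ᶜ ⊆ Iio 0 ∪ {g | M / e ≤ call 0 g} := by
      intro g hg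
      rcases lt_or_ge g 0 with h | h
      · exact Or.inl h
      · right
        have : M / e < g := by
          by_contra h2
          exact hg ⟨h, not_lt.1 h2⟩
        show M / e ≤ call 0 g
        rw [call_zero h]; exact this.le
    refine le_trans (measure_mono h1) (le_trans (measure_union_le _ _) ?_)
    rw [h0 k, zero_add]
    have h2 := mul_meas_ge_le_integral_of_nonneg (μ := ν k) (f := call 0)
      (Eventually.of_forall fun g => call_nonneg _ _) (integrable_call (hint k) 0) (M / e)
    have h3 : (ν k).real {g | M / e ≤ call 0 g} ≤ e := by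
      have h4 : M / e * (ν k).real {g | M / e ≤ call 0 g} ≤ M := le_trans h2 hk.le
      rw [div_mul_eq_mul_div, div_le_iff₀ he] at h4
      exact le_of_mul_le_mul_left (by linarith) hMpos
    have h5 : ν k {g | M / e ≤ call 0 g} = ENNReal.ofReal ((ν k).real {g | M / e ≤ call 0 g}) := by
      rw [measureReal_def, ENNReal.ofReal_toReal (measure_ne_top _ _)]
    rw [h5]
    refine le_trans (ENNReal.ofReal_le_ofReal h3) ?_
    simp
  have hK := isCompact_closure_of_isTightMeasureSet hT
  let U : Ultrafilter κ := Ultrafilter.of l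
  have hU : (U : Filter κ) ≤ l := Ultrafilter.of_le l
  have hmem : closure S ∈ (U.map P : Filter (ProbabilityMeasure ℝ)) := by
    rw [Ultrafilter.coe_map, mem_map]
    refine mem_of_superset (hU hev) fun k hk => subset_closure ⟨k, rfl, hk⟩
  obtain ⟨Q, -, hQ⟩ := hK.ultrafilter_le_nhds' (U.map P) hmem
  have hconv : Tendsto P U (𝓝 Q) := by
    simpa [Tendsto] using hQ
  rw [ProbabilityMeasure.tendsto_iff_forall_integral_tendsto] at hconv
  have hbc : ∀ (f : ℝ → ℝ) (hf : Continuous f) (C : ℝ) (hC : ∀ x, |f x| ≤ C),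
      Tendsto (fun k => ∫ g, f g ∂(ν k)) U (𝓝 (∫ g, f g ∂(Q : Measure ℝ))) := by
    intro f hf C hC
    exact hconv (BoundedContinuousFunction.ofNormedAddCommGroup f hf C (by simpa using hC))
  have hQ0 : (Q : Measure ℝ) (Iio 0) = 0 := by
    have h1 : Tendsto (fun k => ∫ g, min 1 (max (-g) 0) ∂(ν k)) U (𝓝 (∫ g, min 1 (max (-g) 0) ∂(Q : Measure ℝ))) := by
      refine hbc _ (by fun_prop) 1 fun x => ?_
      rw [abs_of_nonneg (le_min zero_le_one (le_max_right _ _))]
      exact min_le_left _ _
    have h2 : ∀ k, ∫ g, min 1 (max (-g) 0) ∂(ν k) = 0 := by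
      intro k
      refine integral_eq_zero_of_ae ?_
      filter_upwards [hnn k] with g hg
      simp [hg]
    simp_rw [h2] at h1
    have h3 : ∫ g, min 1 (max (-g) 0) ∂(Q : Measure ℝ) = 0 :=
      (tendsto_nhds_unique tendsto_const_nhds h1).symm
    have hi : Integrable (fun g : ℝ => min 1 (max (-g) 0)) (Q : Measure ℝ) := by
      refine Integrable.of_bound (by fun_prop) 1 (Eventually.of_forall fun x => ?_)
      rw [Real.norm_eq_abs, abs_of_nonneg (le_min zero_le_one (le_max_right _ _))]
      exact min_le_left _ _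
    have hnn' : (0 : ℝ → ℝ) ≤ fun g : ℝ => min 1 (max (-g) 0) :=
      fun g => le_min zero_le_one (le_max_right _ _)
    rw [integral_eq_zero_iff_of_nonneg hnn' hi] at h3
    have h4 : Iio (0:ℝ) ⊆ {g | ¬ (fun g : ℝ => min 1 (max (-g) 0)) g = (0 : ℝ → ℝ) g} := by
      intro g hg
      have hg' : g < 0 := hg
      show ¬ (min 1 (max (-g) 0) = 0)
      have : 0 < min 1 (max (-g) 0) := lt_min one_pos (lt_max_of_lt_left (by linarith))
      exact this.ne'
    exact measure_mono_null h4 h3
  have hQnn : ∀ᵐ g ∂(Q : Measure ℝ), 0 ≤ g := by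
    rw [ae_iff]
    have : {a : ℝ | ¬ 0 ≤ a} = Iio 0 := by ext a; simp
    rw [this]; exact hQ0
  -- truncated call prices
  have htr : ∀ s, 0 ≤ s → ∀ m : ℕ, ∫ g, (call s g - call (s + m) g) ∂(Q : Measure ℝ) = H s - H (s + m) := by
    intro s hs0 m
    have h1 : Tendsto (fun k => ∫ g, (call s g - call (s + m) g) ∂(ν k)) U
        (𝓝 (∫ g, (call s g - call (s + m) g) ∂(Q : Measure ℝ))) := by
      refine hbc _ ((call_cont _).sub (call_cont _)) m fun x => ?_
      rw [abs_of_nonneg (sub_nonneg.2 (call_anti (Nat.cast_nonneg m)))]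
      exact call_add_le (Nat.cast_nonneg m)
    have h2 : ∀ k, ∫ g, (call s g - call (s + m) g) ∂(ν k) =
        ∫ g, call s g ∂(ν k) - ∫ g, call (s + m) g ∂(ν k) := fun k =>
      integral_sub (integrable_call (hint k) _) (integrable_call (hint k) _)
    simp_rw [h2] at h1
    exact tendsto_nhds_unique h1
      (((hs s hs0).mono_left hU).sub ((hs (s + m) (by positivity)).mono_left hU))
  have hHm : ∀ s, Tendsto (fun m : ℕ => H s - H (s + m)) atTop (𝓝 (H s)) := by
    intro s
    have : Tendsto (fun m : ℕ => s + (m : ℝ)) atTop atTop :=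
      tendsto_atTop_add_const_left _ _ tendsto_natCast_atTop_atTop
    have := (hH.comp this).const_sub (H s)
    simpa using this
  have hptw : ∀ s g : ℝ, Tendsto (fun m : ℕ => call s g - call (s + m) g) atTop (𝓝 (call s g)) := by
    intro s g
    refine tendsto_const_nhds.congr' ?_
    filter_upwards [eventually_ge_atTop (⌈g - s⌉₊)] with k hk
    have : g - s ≤ k := le_trans (Nat.le_ceil _) (by exact_mod_cast hk)
    have : call (s + k) g = 0 := by
      unfold call
      rw [max_eq_right (by linarith)]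
    rw [this, sub_zero]
  have hmono : ∀ s : ℝ, ∀ᵐ g ∂(Q : Measure ℝ), Monotone fun m : ℕ => call s g - call (s + m) g := by
    intro s
    refine Eventually.of_forall fun g a b hab => ?_
    have : call (s + b) g ≤ call (s + a) g := by
      unfold call
      exact max_le_max (by have : (a:ℝ) ≤ b := by exact_mod_cast hab
                           linarith) le_rfl
    show call s g - call (s + a) g ≤ call s g - call (s + b) g
    linarith
  have hint_tr : ∀ (s : ℝ) (m : ℕ), Integrable (fun g => call s g - call (s + m) g) (Q : Measure ℝ) := by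
    intro s m
    refine Integrable.of_bound ((call_cont _).sub (call_cont _)).aestronglyMeasurable m
      (Eventually.of_forall fun x => ?_)
    rw [Real.norm_eq_abs, abs_of_nonneg (sub_nonneg.2 (call_anti (Nat.cast_nonneg m)))]
    exact call_add_le (Nat.cast_nonneg m)
  -- integrability of the identity
  have hHnn : ∀ s, 0 ≤ s → 0 ≤ H s := fun s hs0 =>
    ge_of_tendsto' (hs s hs0) fun k => integral_nonneg fun g => call_nonneg _ _
  have hQint0 : Integrable (call 0) (Q : Measure ℝ) := by
    refine integrable_of_tendsto (G := fun m g => call 0 g - call (0 + m) g)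
      (Eventually.of_forall fun g => hptw 0 g) (fun m => (hint_tr 0 m).1) ?_
    have h1 : ∀ m : ℕ, ∫⁻ g, ‖call 0 g - call (0 + m) g‖ₑ ∂(Q : Measure ℝ) ≤ ENNReal.ofReal (H 0) := by
      intro m
      rw [← ofReal_integral_norm_eq_lintegral_enorm (hint_tr 0 m)]
      refine ENNReal.ofReal_le_ofReal ?_
      have h2 : ∫ g, ‖call 0 g - call (0 + m) g‖ ∂(Q : Measure ℝ) =
          ∫ g, (call 0 g - call (0 + m) g) ∂(Q : Measure ℝ) := by
        refine integral_congr_ae (Eventually.of_forall fun g => ?_)
        show ‖call 0 g - call (0 + m) g‖ = _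
        rw [Real.norm_eq_abs, abs_of_nonneg (sub_nonneg.2 (call_anti (Nat.cast_nonneg m)))]
      rw [h2, htr 0 le_rfl m]
      have := hHnn (0 + m) (by positivity)
      linarith
    have h3 : liminf (fun m : ℕ => ∫⁻ g, ‖call 0 g - call (0 + m) g‖ₑ ∂(Q : Measure ℝ)) atTop
        ≤ ENNReal.ofReal (H 0) := by
      refine le_trans (liminf_le_liminf (v := fun _ => ENNReal.ofReal (H 0))
        (Eventually.of_forall h1)) ?_
      rw [liminf_const]
    exact ne_top_of_le_ne_top ENNReal.ofReal_ne_top h3
  have hQint : Integrable (fun g => g) (Q : Measure ℝ) := by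
    refine hQint0.congr ?_
    filter_upwards [hQnn] with g hg
    exact call_zero hg
  refine ⟨Q, Q.2, hQ0, hQint, fun s hs0 => ?_⟩
  have h1 := integral_tendsto_of_tendsto_of_monotone (hint_tr s) (integrable_call hQint s)
    (hmono s) (Eventually.of_forall fun g => hptw s g)
  simp_rw [htr s hs0] at h1
  exact tendsto_nhds_unique h1 (hHm s)

end

end Vale.Agent.P156.H761
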